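import Vale.Agent.P097.Disc.Defs

/-! # P097 / Disc : internal interfaces of [D3] (helper123)

`D3` = (S2) local structure of the slope + (S3) rationality (helper104) + (S4) mirror identity
(helper779) + (ALG) algebra (helper541, helper779). -/

set_option linter.all false

open scoped Polynomial

namespace Vale.Agent.P097.D3

open Vale.Agent.P097.Disc

/-- polynomial as a rational function -/
noncomputable def pr (f : ℂ[X]) : RatFunc ℂ := algebraMap ℂ[X] (RatFunc ℂ) f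

/-- derivative of a rational function -/
noncomputable def rD (r : RatFunc ℂ) : RatFunc ℂ :=
  pr (Polynomial.derivative r.num * r.denom - r.num * Polynomial.derivative r.denom) /
    pr r.denom ^ 2

/-- `F = ∑ F n * N ^ n` is the slope `dp / dlog N` of the foliation `Q = const`:
`F * ∂_p Q = - N * ∂_N Q` -/
def IsSlope (Q F : ℕ → RatFunc ℂ) : Prop :=
  PowerSeries.mk F * PowerSeries.mk (fun n => rD (Q n)) =
    - PowerSeries.mk (fun n => (n : RatFunc ℂ) * Q n)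

/-- [S2] near every point `s` the slope has at most one simple pole `p = s + φ(N)` -/
def S2 : Prop :=
  ∀ (a : ℕ → ℂ) (Q F : ℕ → RatFunc ℂ), a 0 = 1 → a 1 = 0 → IsLabel a Q → IsSlope Q F →
    ∀ s : ℂ, ∃ φ : ℕ → ℂ, φ 0 = 0 ∧ ∀ n, RegAt ((RatFunc.X - RatFunc.C s) * F n -
      ∑ i ∈ Finset.range (n + 1), RatFunc.C (φ i) * F (n - i)) s

/-- `R(N, p)` (inner variable `N`, outer variable `p`) as a power series in `N` over `ℂ(p)` -/
noncomputable def evB (R : ℂ[X][X]) : PowerSeries (RatFunc ℂ) :=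
  R.eval₂ (Polynomial.eval₂RingHom (PowerSeries.C.comp (algebraMap ℂ (RatFunc ℂ))) PowerSeries.X)
    (PowerSeries.C RatFunc.X)

/-- `F = P / Q`: the foliation is algebraic of degree `d` -/
structure RatFol (F : ℕ → RatFunc ℂ) (d : ℕ) (P Q : ℂ[X][X]) : Prop where
  hd : 1 ≤ d
  monic : Q.Monic
  deg : Q.natDegree = d - 1
  Qt : ∀ i j, d - 1 < i + j → (Q.coeff j).coeff i = 0
  Pt : ∀ i j, d < i + j → (P.coeff j).coeff i = 0
  P0 : ∀ j, (P.coeff j).coeff 0 = 0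
  cop : IsRelPrime P Q
  eq : evB Q * PowerSeries.mk F = evB P

/-- [S3] rationality. `D = ∑ D n * N ^ n` = product of the `p - s - φ_s(N)`. -/
def S3 : Prop :=
  ∀ (F : ℕ → RatFunc ℂ), F 0 = 0 → (∀ n, F n = 0 ∨ (F n).intDegree ≤ 1 - (n : ℤ)) →
    ∀ (m : ℕ) (D : ℕ → ℂ[X]), (D 0).Monic → (D 0).natDegree = m →
      (∀ n, 1 ≤ n → (D n).degree < m) →
      (∀ n, ∃ E : ℂ[X], ∑ i ∈ Finset.range (n + 1), pr (D i) * F (n - i) = pr E) →
      ∃ (d : ℕ) (P Q : ℂ[X][X]), RatFol F d P Q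

/-- `R(z x, A x + B / x)` as a power series in `z` -/
noncomputable def evP (a : ℕ → ℂ) (R : ℂ[X][X]) (x : RatFunc ℂ) : PowerSeries (RatFunc ℂ) :=
  R.eval₂ (Polynomial.eval₂RingHom (PowerSeries.C.comp (algebraMap ℂ (RatFunc ℂ)))
    (PowerSeries.X * PowerSeries.C x)) (pz a x)

/-- `Π(x) = (A x - B / x) Q - P` -/
noncomputable def PiP (a : ℕ → ℂ) (P Q : ℂ[X][X]) (x : RatFunc ℂ) : PowerSeries (RatFunc ℂ) :=
  PowerSeries.mk (fun n => algebraMap ℂ (RatFunc ℂ) (Ac a n) * x -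
    algebraMap ℂ (RatFunc ℂ) (Bc a n) * x⁻¹) * evP a Q x - evP a P x

/-- `ρ = h - D² h` -/
noncomputable def rhoP (a : ℕ → ℂ) : PowerSeries (RatFunc ℂ) :=
  PowerSeries.mk fun n => algebraMap ℂ (RatFunc ℂ) ((1 - (n : ℂ) ^ 2) * a n)

/-- (C1) -/
def C1 (a : ℕ → ℂ) (P Q : ℂ[X][X]) : Prop :=
  PiP a P Q (RatFunc.X)⁻¹ = - PiP a P Q RatFunc.X

/-- (C2) -/
def C2 (a : ℕ → ℂ) (P Q : ℂ[X][X]) : Prop :=
  rhoP a * PowerSeries.C (RatFunc.X - (RatFunc.X)⁻¹) *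
    (evP a Q RatFunc.X + evP a Q (RatFunc.X)⁻¹) = 4 * PiP a P Q RatFunc.X

/-- [S4] mirror identity -/
def S4 : Prop :=
  ∀ (a : ℕ → ℂ) (Q F : ℕ → RatFunc ℂ) (d : ℕ) (P R : ℂ[X][X]), a 0 = 1 → a 1 = 0 → IsLabel a Q →
    IsSlope Q F → RatFol F d P R → C1 a P R ∧ C2 a P R

/-- [ALG] (L3)-(L7) + FIN -/
def ALG : Prop :=
  ∀ (a : ℕ → ℂ) (d : ℕ) (P Q : ℂ[X][X]), a 0 = 1 → 1 ≤ d → Q.Monic → Q.natDegree = d - 1 →
    (∀ i j, d - 1 < i + j → (Q.coeff j).coeff i = 0) →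
    (∀ i j, d < i + j → (P.coeff j).coeff i = 0) → (∀ j, (P.coeff j).coeff 0 = 0) →
    C1 a P Q → C2 a P Q →
    ∃ c b : ℂ, (PowerSeries.mk a + PowerSeries.C c * PowerSeries.X) ^ 2 =
      1 + PowerSeries.C b * PowerSeries.X ^ 2

end Vale.Agent.P097.D3
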