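import Vale.Agent.P097.H123.D3Defs
import Vale.Agent.P097.H541.AlgHalf

/-! # P097 / Disc : [ALG] (541, 779) in the form of D3Defs -/

set_option linter.all false

open scoped Polynomial
open Vale.Agent.P097.Disc

namespace Vale.Agent.P097.D3

theorem transc_X : Transcendental ℂ (RatFunc.X : RatFunc ℂ) := by
  rw [← RatFunc.algebraMap_X]
  intro h
  have h2 : IsAlgebraic ℂ (Polynomial.X : ℂ[X]) :=
    (isAlgebraic_algebraMap_iff (RatFunc.algebraMap_injective ℂ)).1 h
  exact Polynomial.transcendental_X ℂ h2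

theorem alg : ALG := by
  intro a d P Q ha hd hQ hdeg hQt hPt hP0 h1 h2
  have hQ1 : (Q.coeff (d - 1)).coeff 0 = 1 := by
    have : Q.coeff (d - 1) = 1 := by
      rw [← hdeg]
      exact hQ
    rw [this, Polynomial.coeff_one_zero]
  exact H541.algHalf (L := RatFunc ℂ) (ξ := RatFunc.X) ha
    ⟨hd, hQ1, hQt, hPt, hP0⟩ transc_X h1 h2

end Vale.Agent.P097.D3
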