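import Vale.Agent.P097.H123.D3Asm

/-! # P097 / Disc : from `RatFol` (D3Defs) to the Bezout form and to the relation of coefficients -/

set_option linter.all false

open scoped Polynomial nonZeroDivisors
open Vale.Agent.P097.Disc

namespace Vale.Agent.P097.D3

theorem cop_frac {K : Type*} [Field K] [Algebra ℂ[X] K] [IsFractionRing ℂ[X] K] {P Q : ℂ[X][X]}
    (hQ : Q.Monic) (h : IsRelPrime P Q) :
    IsCoprime (P.map (algebraMap ℂ[X] K)) (Q.map (algebraMap ℂ[X] K)) := by
  have hinj : Function.Injective (algebraMap ℂ[X] K) := IsFractionRing.injective ℂ[X] K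
  refine IsRelPrime.isCoprime (fun g hgP hgQ => ?_)
  have hg0 : g ≠ 0 := by
    intro h0
    rw [h0, zero_dvd_iff] at hgQ
    exact (hQ.map _).ne_zero hgQ
  obtain ⟨g', hg'⟩ := IsIntegrallyClosed.eq_map_mul_C_of_dvd K hQ hgQ
  have hl : g.leadingCoeff ≠ 0 := Polynomial.leadingCoeff_ne_zero.2 hg0
  have hu : IsUnit (Polynomial.C g.leadingCoeff) := Polynomial.isUnit_C.2 hl.isUnit
  have hmon : (g'.map (algebraMap ℂ[X] K)).Monic := by
    have h1 := congrArg Polynomial.leadingCoeff hg'
    rw [Polynomial.leadingCoeff_mul, Polynomial.leadingCoeff_C] at h1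
    exact mul_right_cancel₀ hl (by rw [h1, one_mul])
  have hmon' : g'.Monic := Polynomial.monic_of_injective hinj hmon
  have hdvd : ∀ R : ℂ[X][X], g ∣ R.map (algebraMap ℂ[X] K) → g' ∣ R := by
    intro R hR
    rw [← Polynomial.map_dvd_map _ hinj hmon']
    refine dvd_trans ?_ hR
    rw [← hg']
    exact Dvd.intro _ rfl
  have hu' : IsUnit g' := h (hdvd P hgP) (hdvd Q hgQ)
  rw [← hg']
  exact (hu'.map (Polynomial.mapRingHom (algebraMap ℂ[X] K))).mul hu

theorem bezout {P Q : ℂ[X][X]} (hQ : Q.Monic) (h : IsRelPrime P Q) :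
    ∃ U W : ℂ[X][X], ∃ r : ℂ[X], r ≠ 0 ∧ U * P + W * Q = Polynomial.C r := by
  have hinj : Function.Injective (algebraMap ℂ[X] (FractionRing ℂ[X])) :=
    IsFractionRing.injective ℂ[X] (FractionRing ℂ[X])
  obtain ⟨u, w, huw⟩ := cop_frac (K := FractionRing ℂ[X]) hQ h
  obtain ⟨b, hb, hU⟩ := IsLocalization.integerNormalization_spec ℂ[X]⁰ u
  obtain ⟨c, hc, hW⟩ := IsLocalization.integerNormalization_spec ℂ[X]⁰ w
  set U := IsLocalization.integerNormalization ℂ[X]⁰ u
  set W := IsLocalization.integerNormalization ℂ[X]⁰ w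
  refine ⟨Polynomial.C c * U, Polynomial.C b * W, b * c,
    mul_ne_zero (nonZeroDivisors.ne_zero hb) (nonZeroDivisors.ne_zero hc), ?_⟩
  apply Polynomial.map_injective _ hinj
  have hU' : U.map (algebraMap ℂ[X] (FractionRing ℂ[X])) =
      Polynomial.C (algebraMap ℂ[X] (FractionRing ℂ[X]) b) * u := by
    rw [hU, Algebra.smul_def]
    rfl
  have hW' : W.map (algebraMap ℂ[X] (FractionRing ℂ[X])) =
      Polynomial.C (algebraMap ℂ[X] (FractionRing ℂ[X]) c) * w := by
    rw [hW, Algebra.smul_def]
    rfl
  simp only [Polynomial.map_add, Polynomial.map_mul, Polynomial.map_C, hU', hW', map_mul]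
  linear_combination (Polynomial.C (algebraMap ℂ[X] (FractionRing ℂ[X]) b) *
    Polynomial.C (algebraMap ℂ[X] (FractionRing ℂ[X]) c)) * huw

/-- coefficient of `N ^ n` of `R(N, p)` (inner variable `N`), as a polynomial in `p` -/
noncomputable def cN (R : ℂ[X][X]) (n : ℕ) : ℂ[X] :=
  ∑ j ∈ Finset.range (R.natDegree + 1), Polynomial.monomial j ((R.coeff j).coeff n)

theorem cN_coeff (R : ℂ[X][X]) (n j : ℕ) : (cN R n).coeff j = (R.coeff j).coeff n := by
  rw [cN, Polynomial.finset_sum_coeff]
  simp only [Polynomial.coeff_monomial]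
  rw [Finset.sum_ite_eq']
  split_ifs with h
  · rfl
  · have h' : R.natDegree < j := by simpa using h
    have h2 : R.coeff j = 0 := Polynomial.coeff_eq_zero_of_natDegree_lt h'
    rw [h2, Polynomial.coeff_zero]

theorem coeff_evB (R : ℂ[X][X]) (n : ℕ) : PowerSeries.coeff n (evB R) = pr (cN R n) := by
  induction R using Polynomial.induction_on' with
  | add p q hp hq =>
    have e : cN (p + q) n = cN p n + cN q n := by
      ext j
      rw [Polynomial.coeff_add, cN_coeff, cN_coeff, cN_coeff, Polynomial.coeff_add,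
        Polynomial.coeff_add]
    rw [evB, Polynomial.eval₂_add, map_add, e]
    rw [evB] at hp hq
    rw [hp, hq, pr, pr, pr, map_add]
  | monomial j f =>
    have e : cN (Polynomial.monomial j f) n = Polynomial.C (f.coeff n) * Polynomial.X ^ j := by
      ext i
      rw [cN_coeff, Polynomial.coeff_monomial, Polynomial.coeff_C_mul, Polynomial.coeff_X_pow]
      split_ifs with h1 h2 h2
      · simp
      · exact absurd h1.symm h2
      · exact absurd h2.symm h1
      · simp
    rw [e, evB, Polynomial.eval₂_monomial, ← map_pow, PowerSeries.coeff_mul_C,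
      Polynomial.coe_eval₂RingHom]
    have h2 : PowerSeries.coeff n (Polynomial.eval₂ (PowerSeries.C.comp
        (algebraMap ℂ (RatFunc ℂ))) PowerSeries.X f) = algebraMap ℂ (RatFunc ℂ) (f.coeff n) := by
      induction f using Polynomial.induction_on' with
      | add p q hp hq =>
        have hp' := hp (by
          ext i
          rw [cN_coeff, Polynomial.coeff_monomial, Polynomial.coeff_C_mul, Polynomial.coeff_X_pow]
          split_ifs with h1 h2 h2
          · simp
          · exact absurd h1.symm h2
          · exact absurd h2.symm h1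
          · simp)
        have hq' := hq (by
          ext i
          rw [cN_coeff, Polynomial.coeff_monomial, Polynomial.coeff_C_mul, Polynomial.coeff_X_pow]
          split_ifs with h1 h2 h2
          · simp
          · exact absurd h1.symm h2
          · exact absurd h2.symm h1
          · simp)
        rw [Polynomial.eval₂_add, map_add, hp', hq', Polynomial.coeff_add, map_add]
      | monomial i c =>
        rw [Polynomial.eval₂_monomial, RingHom.comp_apply, PowerSeries.coeff_C_mul,
          PowerSeries.coeff_X_pow, Polynomial.coeff_monomial]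
        split_ifs with h1 h2 h2
        · simp
        · exact absurd h1.symm h2
        · exact absurd h2.symm h1
        · simp
    rw [h2, pr, map_mul, map_pow, RatFunc.algebraMap_X, RatFunc.algebraMap_C]
    rfl

/-- the relation between the coefficients -/
theorem rel_of {Ql F : ℕ → RatFunc ℂ} {d : ℕ} {P Q : ℂ[X][X]} (hF : IsSlope Ql F)
    (h : RatFol F d P Q) (n : ℕ) :
    ∑ ij ∈ Finset.HasAntidiagonal.antidiagonal n, (pr (cN P ij.1) * rD (Ql ij.2) +
      pr (cN Q ij.1) * (ij.2 : RatFunc ℂ) * Ql ij.2) = 0 := by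
  have e : evB P * PowerSeries.mk (fun n => rD (Ql n)) +
      evB Q * PowerSeries.mk (fun n => (n : RatFunc ℂ) * Ql n) = 0 := by
    rw [← h.eq, mul_assoc, hF]
    ring
  have e1 := congrArg (PowerSeries.coeff n) e
  rw [map_add, PowerSeries.coeff_mul, PowerSeries.coeff_mul, ← Finset.sum_add_distrib,
    map_zero] at e1
  rw [← e1]
  refine Finset.sum_congr rfl fun ij _ => ?_
  rw [coeff_evB, coeff_evB, PowerSeries.coeff_mk, PowerSeries.coeff_mk, mul_assoc]

end Vale.Agent.P097.D3
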