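import Vale.Agent.P097.H123.D3Defs

/-! # P097 / Disc : assembly of [D3] (helper123) -/

set_option linter.all false

open scoped Polynomial
open Vale.Agent.P097.Disc

namespace Vale.Agent.P097.D3

/-! ## regular rational functions -/

theorem regAt_iff {r : RatFunc ℂ} {s : ℂ} :
    RegAt r s ↔ ∃ f g : ℂ[X], g.eval s ≠ 0 ∧ r = pr f / pr g := by
  constructor
  · intro h
    exact ⟨r.num, r.denom, h, (RatFunc.num_div_denom r).symm⟩
  · rintro ⟨f, g, hg, rfl⟩
    obtain ⟨c, hc⟩ := RatFunc.denom_div_dvd f g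
    intro h0
    apply hg
    have h1 : (RatFunc.denom (pr f / pr g)).eval s = 0 := h0
    rw [hc, Polynomial.eval_mul]
    unfold pr at h1
    rw [h1, zero_mul]

theorem pr_ne_zero {g : ℂ[X]} (hg : g ≠ 0) : pr g ≠ 0 :=
  RatFunc.algebraMap_ne_zero hg

theorem ne_zero_of_eval {g : ℂ[X]} {s : ℂ} (h : g.eval s ≠ 0) : g ≠ 0 := by
  rintro rfl
  simp at h

theorem regAt_pr (f : ℂ[X]) (s : ℂ) : RegAt (pr f) s :=
  regAt_iff.2 ⟨f, 1, by simp, by simp [pr]⟩

theorem regAt_mul {x y : RatFunc ℂ} {s : ℂ} (hx : RegAt x s) (hy : RegAt y s) :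
    RegAt (x * y) s := by
  obtain ⟨f, g, hg, rfl⟩ := regAt_iff.1 hx
  obtain ⟨f', g', hg', rfl⟩ := regAt_iff.1 hy
  refine regAt_iff.2 ⟨f * f', g * g', by rw [Polynomial.eval_mul]; exact mul_ne_zero hg hg', ?_⟩
  have h1 := pr_ne_zero (ne_zero_of_eval hg)
  have h2 := pr_ne_zero (ne_zero_of_eval hg')
  unfold pr at *
  rw [map_mul, map_mul]
  field_simp

theorem regAt_add {x y : RatFunc ℂ} {s : ℂ} (hx : RegAt x s) (hy : RegAt y s) :
    RegAt (x + y) s := by
  obtain ⟨f, g, hg, rfl⟩ := regAt_iff.1 hx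
  obtain ⟨f', g', hg', rfl⟩ := regAt_iff.1 hy
  refine regAt_iff.2 ⟨f * g' + f' * g, g * g', by
    rw [Polynomial.eval_mul]; exact mul_ne_zero hg hg', ?_⟩
  have h1 := pr_ne_zero (ne_zero_of_eval hg)
  have h2 := pr_ne_zero (ne_zero_of_eval hg')
  unfold pr at *
  rw [map_mul, map_add, map_mul, map_mul]
  field_simp

theorem regAt_neg {x : RatFunc ℂ} {s : ℂ} (hx : RegAt x s) : RegAt (-x) s := by
  have := regAt_mul (regAt_pr (-1) s) hx
  have h : pr (-1) = -1 := by unfold pr; rw [map_neg, map_one]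
  rwa [h, neg_one_mul] at this

theorem regAt_zero (s : ℂ) : RegAt (0 : RatFunc ℂ) s := by
  have := regAt_pr 0 s
  rwa [pr, map_zero] at this

theorem regAt_one (s : ℂ) : RegAt (1 : RatFunc ℂ) s := by
  have := regAt_pr 1 s
  rwa [pr, map_one] at this

/-- rational functions regular at `s` -/
def RegS (s : ℂ) : Subring (RatFunc ℂ) where
  carrier := {r | RegAt r s}
  mul_mem' := regAt_mul
  one_mem' := regAt_one s
  add_mem' := regAt_add
  zero_mem' := regAt_zero s
  neg_mem' := regAt_neg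

theorem mem_RegS {s : ℂ} {r : RatFunc ℂ} : r ∈ RegS s ↔ RegAt r s := Iff.rfl

theorem regAt_rD {x : RatFunc ℂ} {s : ℂ} (hx : RegAt x s) : RegAt (rD x) s := by
  refine regAt_iff.2 ⟨Polynomial.derivative x.num * x.denom - x.num *
    Polynomial.derivative x.denom, x.denom ^ 2, ?_, ?_⟩
  · rw [Polynomial.eval_pow]
    exact pow_ne_zero 2 hx
  · rw [rD]
    congr 1
    simp [pr]

theorem rD_X : rD (RatFunc.X : RatFunc ℂ) = 1 := by
  simp [rD, pr]

theorem poly_of_reg {r : RatFunc ℂ} (h : ∀ s, RegAt r s) : ∃ E : ℂ[X], r = pr E := by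
  have hd : r.denom.degree = 0 := by
    by_contra hne
    obtain ⟨s, hs⟩ := IsAlgClosed.exists_root r.denom hne
    exact h s hs
  have h1 : r.denom = 1 := by
    have := Polynomial.eq_C_of_degree_eq_zero hd
    have hm := RatFunc.monic_denom r
    rw [this] at hm
    rw [this]
    have : (Polynomial.C (r.denom.coeff 0)).leadingCoeff = 1 := hm
    rw [Polynomial.leadingCoeff_C] at this
    rw [this, map_one]
  refine ⟨r.num, ?_⟩
  conv_lhs => rw [← RatFunc.num_div_denom r, h1]
  simp [pr]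

/-! ## degree -/

/-- `r = O(p ^ k)` -/
def GD (k : ℤ) (r : RatFunc ℂ) : Prop := r = 0 ∨ r.intDegree ≤ k

theorem GD_add {k : ℤ} {x y : RatFunc ℂ} (hx : GD k x) (hy : GD k y) : GD k (x + y) := by
  by_cases h : x + y = 0
  · exact Or.inl h
  rcases hy with rfl | hy
  · rwa [add_zero]
  rcases hx with rfl | hx
  · right; rwa [zero_add]
  right
  by_cases hy0 : y = 0
  · rwa [hy0, add_zero]
  exact (RatFunc.intDegree_add_le hy0 h).trans (max_le hx hy)

theorem GD_neg {k : ℤ} {x : RatFunc ℂ} (hx : GD k x) : GD k (-x) := by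
  rcases hx with rfl | hx
  · left; simp
  · right; rwa [RatFunc.intDegree_neg]

theorem GD_mul {k l : ℤ} {x y : RatFunc ℂ} (hx : GD k x) (hy : GD l y) : GD (k + l) (x * y) := by
  by_cases hx0 : x = 0
  · left; rw [hx0, zero_mul]
  by_cases hy0 : y = 0
  · left; rw [hy0, mul_zero]
  have h1 := hx.resolve_left hx0
  have h2 := hy.resolve_left hy0
  right
  rw [RatFunc.intDegree_mul hx0 hy0]
  omega

theorem GD_mono {k l : ℤ} (h : k ≤ l) {x : RatFunc ℂ} (hx : GD k x) : GD l x :=
  hx.imp id fun h' => h'.trans h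

theorem GD_sum {ι : Type*} {k : ℤ} (s : Finset ι) (f : ι → RatFunc ℂ) (h : ∀ i ∈ s, GD k (f i)) :
    GD k (∑ i ∈ s, f i) := by
  classical
  induction s using Finset.induction_on with
  | empty => left; simp
  | insert a s ha ih =>
    rw [Finset.sum_insert ha]
    exact GD_add (h a (Finset.mem_insert_self a s)) (ih fun i hi => h i (Finset.mem_insert_of_mem hi))

theorem GD_nat (n : ℕ) : GD 0 (n : RatFunc ℂ) := by
  have h : (n : RatFunc ℂ) = RatFunc.C (n : ℂ) := by simp
  rw [h]
  right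
  rw [RatFunc.intDegree_C]

theorem intDegree_pr (f : ℂ[X]) : (pr f).intDegree = f.natDegree :=
  RatFunc.intDegree_polynomial

theorem GD_rD {k : ℤ} {x : RatFunc ℂ} (hx : GD k x) : GD (k - 1) (rD x) := by
  by_cases hx0 : x = 0
  · left
    rw [hx0]
    simp [rD, pr]
  have hk := hx.resolve_left hx0
  set f := x.num with hf
  set g := x.denom with hg
  have hf0 : f ≠ 0 := RatFunc.num_ne_zero hx0
  have hg0 : g ≠ 0 := x.denom_ne_zero
  set N := Polynomial.derivative f * g - f * Polynomial.derivative g with hN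
  by_cases hN0 : N = 0
  · left
    rw [rD, ← hf, ← hg, ← hN, hN0]
    simp [pr]
  right
  have hdeg : N.degree < (f * g).degree := by
    refine (Polynomial.degree_sub_le _ _).trans_lt (max_lt ?_ ?_)
    · rw [Polynomial.degree_mul, Polynomial.degree_mul]
      exact WithBot.add_lt_add_right (Polynomial.degree_ne_bot.2 hg0)
        (Polynomial.degree_derivative_lt hf0)
    · rw [Polynomial.degree_mul, Polynomial.degree_mul]
      exact WithBot.add_lt_add_left (Polynomial.degree_ne_bot.2 hf0)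
        (Polynomial.degree_derivative_lt hg0)
  have hnd : N.natDegree < f.natDegree + g.natDegree := by
    rw [← Polynomial.natDegree_mul hf0 hg0]
    exact Polynomial.natDegree_lt_natDegree hN0 hdeg
  have e : rD x = pr N / pr (g ^ 2) := by
    rw [rD, ← hf, ← hg, ← hN]
    simp [pr]
  rw [e, RatFunc.intDegree_div (pr_ne_zero hN0) (pr_ne_zero (pow_ne_zero 2 hg0)), intDegree_pr,
    intDegree_pr, Polynomial.natDegree_pow]
  have : x.intDegree = f.natDegree - g.natDegree := rfl
  push_cast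
  omega

/-! ## the slope -/

theorem slope_rec {Q F : ℕ → RatFunc ℂ} (h : IsSlope Q F) (h0 : Q 0 = RatFunc.X) (n : ℕ) :
    F n = -((n : RatFunc ℂ) * Q n) - ∑ i ∈ Finset.range n, F i * rD (Q (n - i)) := by
  have h1 := congrArg (PowerSeries.coeff n) h
  rw [PowerSeries.coeff_mul, map_neg, PowerSeries.coeff_mk] at h1
  simp only [PowerSeries.coeff_mk] at h1
  rw [Finset.Nat.sum_antidiagonal_eq_sum_range_succ (fun i j => F i * rD (Q j)) n,
    Finset.sum_range_succ, Nat.sub_self, h0, rD_X, mul_one] at h1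
  linear_combination h1

theorem exists_slope (Q : ℕ → RatFunc ℂ) (h0 : Q 0 = RatFunc.X) : ∃ F, IsSlope Q F := by
  set G : PowerSeries (RatFunc ℂ) := PowerSeries.mk (fun n => rD (Q n)) with hG
  set H : PowerSeries (RatFunc ℂ) := - PowerSeries.mk (fun n => (n : RatFunc ℂ) * Q n) with hH
  have hc : PowerSeries.constantCoeff G ≠ 0 := by
    rw [← PowerSeries.coeff_zero_eq_constantCoeff_apply, hG, PowerSeries.coeff_mk, h0, rD_X]
    exact one_ne_zero
  refine ⟨fun n => PowerSeries.coeff n (H * G⁻¹), ?_⟩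
  have e : PowerSeries.mk (fun n => PowerSeries.coeff n (H * G⁻¹)) = H * G⁻¹ := by
    ext n
    rw [PowerSeries.coeff_mk]
  rw [IsSlope, e, ← hG, ← hH, mul_assoc, PowerSeries.inv_mul_cancel G hc, mul_one]

theorem slope_zero {Q F : ℕ → RatFunc ℂ} (h : IsSlope Q F) (h0 : Q 0 = RatFunc.X) : F 0 = 0 := by
  rw [slope_rec h h0 0]
  simp

theorem slope_growth {Q F : ℕ → RatFunc ℂ} (h : IsSlope Q F) (h0 : Q 0 = RatFunc.X)
    (hQ : ∀ n, 1 ≤ n → Q n = 0 ∨ (Q n).intDegree ≤ 1 - (n : ℤ)) (n : ℕ) :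
    GD (1 - (n : ℤ)) (F n) := by
  induction n using Nat.strong_induction_on with
  | _ n ih =>
    rcases Nat.eq_zero_or_pos n with rfl | hn
    · left
      exact slope_zero h h0
    rw [slope_rec h h0 n, sub_eq_add_neg (-((n : RatFunc ℂ) * Q n))]
    refine GD_add (GD_neg ?_) (GD_neg (GD_sum _ _ fun i hi => ?_))
    · have := GD_mul (GD_nat n) (show GD (1 - (n : ℤ)) (Q n) from hQ n hn)
      rwa [zero_add] at this
    · have hi' : i < n := Finset.mem_range.1 hi
      have := GD_mul (ih i hi') (GD_rD (show GD (1 - ((n - i : ℕ) : ℤ)) (Q (n - i)) from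
        hQ (n - i) (by omega)))
      refine GD_mono ?_ this
      push_cast [Nat.cast_sub hi'.le]
      omega

theorem slope_reg {Q F : ℕ → RatFunc ℂ} (h : IsSlope Q F) (h0 : Q 0 = RatFunc.X) {s : ℂ}
    (hQ : ∀ n, RegAt (Q n) s) (n : ℕ) : RegAt (F n) s := by
  induction n using Nat.strong_induction_on with
  | _ n ih =>
    rw [slope_rec h h0 n, ← mem_RegS]
    refine (RegS s).sub_mem ((RegS s).neg_mem ((RegS s).mul_mem (natCast_mem _ _) (hQ n)))
      ((RegS s).sum_mem fun i hi => (RegS s).mul_mem (ih i (Finset.mem_range.1 hi)) ?_)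
    exact regAt_rD (hQ _)

/-! ## the denominator -/

/-- `p - s - φ(N)` -/
noncomputable def lin (s : ℂ) (φ : ℕ → ℂ) : PowerSeries ℂ[X] :=
  PowerSeries.mk fun n => if n = 0 then Polynomial.X - Polynomial.C s else - Polynomial.C (φ n)

/-- monic of degree `m` in `p` -/
def PD (m : ℕ) (D : PowerSeries ℂ[X]) : Prop :=
  (PowerSeries.coeff 0 D).Monic ∧ (PowerSeries.coeff 0 D).natDegree = m ∧
    ∀ n, 1 ≤ n → (PowerSeries.coeff n D).degree < m

theorem PD_one : PD 0 (1 : PowerSeries ℂ[X]) := by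
  refine ⟨?_, ?_, ?_⟩
  · simp
  · simp
  · intro n hn
    rw [PowerSeries.coeff_one, if_neg (by omega)]
    simp

theorem PD_mul {m : ℕ} {D : PowerSeries ℂ[X]} (h : PD m D) (s : ℂ) (φ : ℕ → ℂ) :
    PD (m + 1) (lin s φ * D) := by
  obtain ⟨h1, h2, h3⟩ := h
  have e0 : PowerSeries.coeff 0 (lin s φ * D) = (Polynomial.X - Polynomial.C s) *
      PowerSeries.coeff 0 D := by
    rw [PowerSeries.coeff_mul]
    simp [lin]
  refine ⟨?_, ?_, ?_⟩
  · rw [e0]
    exact (Polynomial.monic_X_sub_C s).mul h1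
  · rw [e0, Polynomial.Monic.natDegree_mul (Polynomial.monic_X_sub_C s) h1,
      Polynomial.natDegree_X_sub_C, h2, add_comm]
  · intro n hn
    rw [PowerSeries.coeff_mul, ← Polynomial.mem_degreeLT]
    refine Submodule.sum_mem _ fun ij hij => ?_
    rw [Polynomial.mem_degreeLT]
    have hs := Finset.HasAntidiagonal.mem_antidiagonal.1 hij
    by_cases hi : ij.1 = 0
    · have hj : ij.2 = n := by omega
      rw [hi, hj, lin, PowerSeries.coeff_mk, if_pos rfl, Polynomial.degree_mul,
        Polynomial.degree_X_sub_C]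
      have := h3 n hn
      by_cases h0 : PowerSeries.coeff n D = 0
      · rw [h0, Polynomial.degree_zero]
        simp
      · rw [Polynomial.degree_eq_natDegree h0] at this ⊢
        have h4 : (PowerSeries.coeff n D).natDegree < m := by exact_mod_cast this
        have : 1 + (PowerSeries.coeff n D).natDegree < m + 1 := by omega
        exact_mod_cast this
    · rw [lin, PowerSeries.coeff_mk, if_neg hi]
      refine (Polynomial.degree_mul_le _ _).trans_lt ?_
      have hc : (-Polynomial.C (φ ij.1)).degree ≤ 0 := by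
        rw [Polynomial.degree_neg]
        exact Polynomial.degree_C_le
      have hD : (PowerSeries.coeff ij.2 D).degree ≤ m := by
        rcases Nat.eq_zero_or_pos ij.2 with h0 | h0
        · rw [h0]
          refine Polynomial.degree_le_natDegree.trans ?_
          rw [h2]
        · exact (h3 _ h0).le
      calc _ ≤ (0 : WithBot ℕ) + m := add_le_add hc hD
        _ = (m : WithBot ℕ) := by rw [zero_add]
        _ < _ := by exact_mod_cast Nat.lt_succ_self m

theorem PD_prod (S : Finset ℂ) (φ : ℂ → ℕ → ℂ) : PD S.card (∏ s ∈ S, lin s (φ s)) := by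
  classical
  induction S using Finset.induction_on with
  | empty => simpa using PD_one
  | insert a S ha ih =>
    rw [Finset.prod_insert ha, Finset.card_insert_of_notMem ha]
    exact PD_mul ih a (φ a)

theorem coeff_mul_mem {R : Subring (RatFunc ℂ)} {f g : PowerSeries (RatFunc ℂ)}
    (hf : ∀ n, PowerSeries.coeff n f ∈ R) (hg : ∀ n, PowerSeries.coeff n g ∈ R) (n : ℕ) :
    PowerSeries.coeff n (f * g) ∈ R := by
  rw [PowerSeries.coeff_mul]
  exact R.sum_mem fun ij _ => R.mul_mem (hf _) (hg _)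

/-- **assembly of [D3]** -/
theorem d3_of (hLAB : LAB) (hS2 : S2) (hS3 : S3) (hS4 : S4) (hALG : ALG) : D3 := by
  classical
  intro a Q S ha0 ha1 hQ hreg
  obtain ⟨Q', hQ', huniq, hgr'⟩ := hLAB ℂ a ha0 ha1
  have hQQ : Q = Q' := huniq Q hQ
  have hgr : ∀ n, 1 ≤ n → Q n = 0 ∨ (Q n).intDegree ≤ 1 - (n : ℤ) := by
    rw [hQQ]
    exact hgr'
  have hQ0 : Q 0 = RatFunc.X := hQ.1
  obtain ⟨F, hF⟩ := exists_slope Q hQ0
  have hFreg : ∀ s ∉ S, ∀ n, RegAt (F n) s := fun s hs n => slope_reg hF hQ0 (hreg s hs) n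
  choose φ hφ0 hφ using hS2 a Q F ha0 ha1 hQ hF
  set D : PowerSeries ℂ[X] := ∏ s ∈ S, lin s (φ s) with hD
  have hPD := PD_prod S φ
  rw [← hD] at hPD
  let pm : ℂ[X] →+* RatFunc ℂ := algebraMap ℂ[X] (RatFunc ℂ)
  have hlin : ∀ s ∈ S, ∀ n, PowerSeries.coeff n (PowerSeries.map pm (lin s (φ s)) *
      PowerSeries.mk F) ∈ RegS s := by
    intro s hs n
    have e : PowerSeries.coeff n (PowerSeries.map pm (lin s (φ s)) * PowerSeries.mk F) =
        (RatFunc.X - RatFunc.C s) * F n -
          ∑ i ∈ Finset.range (n + 1), RatFunc.C (φ s i) * F (n - i) := by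
      rw [PowerSeries.coeff_mul]
      simp only [PowerSeries.coeff_map, PowerSeries.coeff_mk, lin]
      rw [Finset.Nat.sum_antidiagonal_eq_sum_range_succ (fun i j => pm (if i = 0 then
        Polynomial.X - Polynomial.C s else - Polynomial.C (φ s i)) * F j) n,
        Finset.sum_range_succ', Finset.sum_range_succ']
      have h1 : ∀ k, pm (if k + 1 = 0 then Polynomial.X - Polynomial.C s
          else - Polynomial.C (φ s (k + 1))) * F (n - (k + 1)) =
          -(RatFunc.C (φ s (k + 1)) * F (n - (k + 1))) := by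
        intro k
        rw [if_neg (Nat.succ_ne_zero k)]
        have : pm (-Polynomial.C (φ s (k + 1))) = - RatFunc.C (φ s (k + 1)) := by
          rw [map_neg]
          simp [pm]
        rw [this]
        ring
      simp only [h1]
      rw [Finset.sum_neg_distrib, if_pos trivial, hφ0]
      have h2 : pm (Polynomial.X - Polynomial.C s) = RatFunc.X - RatFunc.C s := by
        rw [map_sub]
        simp [pm]
      rw [h2]
      simp
      ring
    rw [e, mem_RegS]
    exact hφ s n
  have hpol : ∀ (G : PowerSeries ℂ[X]) (s : ℂ) (n : ℕ),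
      PowerSeries.coeff n (PowerSeries.map pm G) ∈ RegS s := by
    intro G s n
    rw [PowerSeries.coeff_map]
    exact regAt_pr _ s
  have hall : ∀ (s : ℂ) (n : ℕ), PowerSeries.coeff n (PowerSeries.map pm D *
      PowerSeries.mk F) ∈ RegS s := by
    intro s n
    by_cases hs : s ∈ S
    · have e : PowerSeries.map pm D * PowerSeries.mk F =
          PowerSeries.map pm (∏ x ∈ S.erase s, lin x (φ x)) *
            (PowerSeries.map pm (lin s (φ s)) * PowerSeries.mk F) := by
        rw [hD, ← Finset.mul_prod_erase S _ hs, RingHom.map_mul]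
        ring
      rw [e]
      exact coeff_mul_mem (hpol _ s) (hlin s hs) n
    · refine coeff_mul_mem (hpol _ s) (fun m => ?_) n
      rw [PowerSeries.coeff_mk]
      exact hFreg s hs m
  obtain ⟨d, P, R, hR⟩ := hS3 F (slope_zero hF hQ0) (slope_growth hF hQ0 hgr) S.card
    (fun n => PowerSeries.coeff n D) hPD.1 hPD.2.1 hPD.2.2 (by
      intro n
      obtain ⟨E, hE⟩ := poly_of_reg (fun s => hall s n)
      refine ⟨E, ?_⟩
      rw [← hE, PowerSeries.coeff_mul, Finset.Nat.sum_antidiagonal_eq_sum_range_succ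
        (fun i j => PowerSeries.coeff i (PowerSeries.map pm D) *
          PowerSeries.coeff j (PowerSeries.mk F)) n]
      refine Finset.sum_congr rfl fun i _ => ?_
      rw [PowerSeries.coeff_map, PowerSeries.coeff_mk]
      rfl)
  obtain ⟨h1, h2⟩ := hS4 a Q F d P R ha0 ha1 hQ hF hR
  obtain ⟨c, b, hcb⟩ := hALG a d P R ha0 hR.hd hR.monic hR.deg hR.Qt hR.Pt hR.P0 h1 h2
  have hc : c = 0 := by
    have e1 := congrArg (PowerSeries.coeff 1) hcb
    rw [pow_two, PowerSeries.coeff_mul, Finset.Nat.sum_antidiagonal_eq_sum_range_succ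
      (fun i j => PowerSeries.coeff i (PowerSeries.mk a + PowerSeries.C c * PowerSeries.X) *
        PowerSeries.coeff j (PowerSeries.mk a + PowerSeries.C c * PowerSeries.X)) 1] at e1
    simp [Finset.sum_range_succ, PowerSeries.coeff_one, PowerSeries.coeff_X,
      PowerSeries.coeff_X_pow, ha0, ha1] at e1
    exact e1
  refine ⟨b, ?_⟩
  rw [hc, map_zero, zero_mul, add_zero] at hcb
  exact hcb

end Vale.Agent.P097.D3
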