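import Vale.Agent.P097.H123.D3Asm
import Vale.Agent.P097.H896.D3.Reg

/-! # P097 / Disc : [S2] from its special case (resonances) -/

set_option linter.all false

open scoped Polynomial
open Vale.Agent.P097.Disc

namespace Vale.Agent.P097.D3

/-- [S2] at a resonance -/
def S2sp : Prop :=
  ∀ (a : ℕ → ℂ) (Q F : ℕ → RatFunc ℂ), a 0 = 1 → a 1 = 0 → IsLabel a Q → IsSlope Q F →
    ∀ (x : ℂ) (m : ℕ), 1 ≤ m → x ≠ 0 → x ^ 2 ≠ 1 → x ^ (2 * m) = 1 →
    ∃ φ : ℕ → ℂ, φ 0 = 0 ∧ ∀ n, RegAt ((RatFunc.X - RatFunc.C ((x + x⁻¹) / 2)) * F n -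
      ∑ i ∈ Finset.range (n + 1), RatFunc.C (φ i) * F (n - i)) ((x + x⁻¹) / 2)

theorem s2_of (h : S2sp) : S2 := by
  intro a Q F ha0 ha1 hQ hF s
  obtain ⟨x, hx0, hx⟩ : ∃ x : ℂ, x ≠ 0 ∧ (x + x⁻¹) / 2 = s := by
    obtain ⟨w, hw⟩ : ∃ w : ℂ, w ^ 2 = s ^ 2 - 1 := IsAlgClosed.exists_pow_nat_eq _ (by norm_num)
    have h1 : (s + w) * (s - w) = 1 := by linear_combination -hw
    have h0 : s + w ≠ 0 := by
      intro h0
      rw [h0, zero_mul] at h1
      exact zero_ne_one h1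
    refine ⟨s + w, h0, ?_⟩
    have : (s + w)⁻¹ = s - w := by
      rw [inv_eq_iff_eq_inv]
      exact eq_inv_of_mul_eq_one_left h1
    rw [this]
    ring
  by_cases hsp : ∃ m, 1 ≤ m ∧ x ^ (2 * m) = 1 ∧ x ^ 2 ≠ 1
  · obtain ⟨m, hm, h1, h2⟩ := hsp
    have := h a Q F ha0 ha1 hQ hF x m hm hx0 h2 h1
    rwa [hx] at this
  · have hreg : ∀ n, RegAt (Q n) s := by
      intro n
      rw [← hx]
      refine H896.D3.label_regAt ha0 hQ hx0 n fun m hm _ h1 => ?_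
      by_contra h2
      exact hsp ⟨m, hm, h1, h2⟩
    refine ⟨fun _ => 0, rfl, fun n => ?_⟩
    have hF' := slope_reg hF hQ.1 hreg
    rw [← mem_RegS]
    refine (RegS s).sub_mem ((RegS s).mul_mem ?_ (hF' n)) ((RegS s).sum_mem fun i _ => ?_)
    · have := regAt_pr (Polynomial.X - Polynomial.C s) s
      have e : pr (Polynomial.X - Polynomial.C s) = RatFunc.X - RatFunc.C s := by
        rw [pr, map_sub]
        simp
      rwa [e] at this
    · rw [map_zero, zero_mul]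
      exact (RegS s).zero_mem

/-- [D3] from the three open blocks -/
theorem d3_of' (hLAB : LAB) (hS2 : S2sp) (hS3 : S3) (hS4 : S4) (hALG : ALG) : D3 :=
  d3_of hLAB (s2_of hS2) hS3 hS4 hALG

end Vale.Agent.P097.D3
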