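import Vale.Agent.P097.H490.D3.Core
import Vale.Agent.P097.H541.S2End
import Vale.Agent.P097.DG.Transfer
import Vale.Agent.P097.H779.Disc.S4c
import Vale.Agent.P097.H104.S3
import Vale.Agent.P097.H896.D3.Lab
import Vale.Agent.P097.H123.S2Glue
import Vale.Agent.P097.H123.Alg

/-! # P097 / H123 : [D3] from the existence of the logarithm of a unipotent automorphism -/

set_option linter.all false

namespace Vale.Agent.P097.D3

theorem transfer_proof : H490.D3.TRANSFER := by
  intro a Q ha hQ K P q hq hP S _ _ z x y hxy hz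
  exact DG.label_transfer a ha Q hQ K P q hq hP z x y hxy hz _ _ rfl rfl

theorem end_proof : H490.D3.END := by
  intro F c X1 X2 h00 h01 H
  exact H541.s2_end F c X1 X2 h00 h01 H

theorem d3_of_log (h : H490.D3.LOG) : Disc.D3 :=
  d3_of' H896.D3.LAB_proof (H490.D3.s2sp_of h transfer_proof end_proof) H104.s3
    H779.Disc.s4 alg

end Vale.Agent.P097.D3
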